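import Vale.Agent.P286ET.Spec

/-!
# The comparison of two models of the cover of an elliptic curve
-/

namespace Vale.Agent.P286ET3

open CategoryTheory Vale.Agent.P286ET Ix MvPolynomial

noncomputable section

section
variable {P A B B' : Type} [CommRing P] [CommRing A] [CommRing B] [CommRing B'] [Algebra ℂ P]
  [Algebra ℂ A] [Algebra ℂ B] [Algebra ℂ B']

theorem equiv_of (φ : P →ₐ[ℂ] B) (φ' : P →ₐ[ℂ] B') (h : Function.Surjective φ)
    (h' : Function.Surjective φ') (hk : ∀ z, φ z = 0 ↔ φ' z = 0) :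
    ∃ e : B ≃ₐ[ℂ] B', ∀ z, e (φ z) = φ' z := by
  have e : RingHom.ker φ = RingHom.ker φ' := Ideal.ext hk
  refine ⟨((Ideal.quotientKerAlgEquivOfSurjective h).symm.trans
    (Ideal.quotientEquivAlgOfEq ℂ e)).trans (Ideal.quotientKerAlgEquivOfSurjective h'),
    fun z => ?_⟩
  have h1 : (Ideal.quotientKerAlgEquivOfSurjective h).symm (φ z) = Ideal.Quotient.mk _ z :=
    (AlgEquiv.symm_apply_eq _).2 rfl
  rw [AlgEquiv.trans_apply, AlgEquiv.trans_apply, h1]
  rfl

theorem away_loc {φ : A →ₐ[ℂ] B} {s : A} (h : IsAway φ s) :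
    @IsLocalization.Away A _ s B _ φ.toRingHom.toAlgebra := by
  let _ := φ.toRingHom.toAlgebra
  refine IsLocalization.Away.mk s h.unit (fun y => ?_) fun x x' hx => ?_
  · obtain ⟨m, x, hx⟩ := h.surj y
    exact ⟨m, x, (mul_comm _ _).trans hx⟩
  · obtain ⟨m, hm⟩ := h.ker (x - x') (by rw [map_sub]; exact sub_eq_zero.2 hx)
    exact ⟨m, by rwa [mul_sub, sub_eq_zero] at hm⟩

theorem away_equiv {φ : A →ₐ[ℂ] B} {φ' : A →ₐ[ℂ] B'} {s : A} (h : IsAway φ s)
    (h' : IsAway φ' s) : ∃ e : B ≃ₐ[ℂ] B', ∀ r, e (φ r) = φ' r := by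
  let _ := φ.toRingHom.toAlgebra
  let _ := φ'.toRingHom.toAlgebra
  have := away_loc h
  have := away_loc h'
  let e := IsLocalization.algEquiv (Submonoid.powers s) B B'
  have he : ∀ r, e (φ r) = φ' r := fun r => e.commutes r
  refine ⟨AlgEquiv.ofRingEquiv (f := e.toRingEquiv) fun c => ?_, he⟩
  rw [← φ.commutes, ← φ'.commutes]
  exact he _

theorem away_comp {φ : B →ₐ[ℂ] B'} {s : A} (e : A ≃ₐ[ℂ] B) (h : IsAway φ (e s)) :
    IsAway (φ.comp (e : A →ₐ[ℂ] B)) s := by
  refine ⟨h.unit, fun y => ?_, fun x hx => ?_⟩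
  · obtain ⟨m, x, hx⟩ := h.surj y
    obtain ⟨x, rfl⟩ := e.surjective x
    exact ⟨m, x, hx⟩
  · obtain ⟨m, hm⟩ := h.ker (e x) hx
    exact ⟨m, e.injective (by rw [map_mul, map_pow, hm, map_zero])⟩

theorem away_ext {φ : A →ₐ[ℂ] B} {s : A} (h : IsAway φ s) {f g : B →ₐ[ℂ] B'}
    (hfg : ∀ r, f (φ r) = g (φ r)) (y : B) : f y = g y := by
  obtain ⟨m, x, hx⟩ := h.surj y
  have h1 := hfg x
  rw [← hx, map_mul, map_mul, map_pow, map_pow, ← hfg s] at h1
  exact ((h.unit.map f).pow m).mul_left_cancel h1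

/-- the elements on which two derivations agree -/
def agr (k : A →ₐ[ℂ] B) (d : Derivation ℂ A A) (d' : Derivation ℂ B B) (c : ℂ) :
    Subalgebra ℂ A where
  carrier := {r | d' (k r) = c • k (d r)}
  mul_mem' {x y} hx hy := by
    have hx' : d' (k x) = c • k (d x) := hx
    have hy' : d' (k y) = c • k (d y) := hy
    change d' (k (x * y)) = c • k (d (x * y))
    simp only [map_mul, Derivation.leibniz, hx', hy', smul_eq_mul, map_add, smul_add,
      mul_smul_comm]
  add_mem' {x y} hx hy := by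
    have hx' : d' (k x) = c • k (d x) := hx
    have hy' : d' (k y) = c • k (d y) := hy
    change d' (k (x + y)) = c • k (d (x + y))
    simp only [map_add, hx', hy', smul_add]
  algebraMap_mem' r := by
    change d' (k _) = c • k (d _)
    simp

theorem agr_div {k : A →ₐ[ℂ] B} {d : Derivation ℂ A A} {d' : Derivation ℂ B B} {c : ℂ} {s r : A}
    (hu : IsUnit s) (hs : s ∈ agr k d d' c) (hr : s * r ∈ agr k d d' c) : r ∈ agr k d d' c := by
  have h1 : d' (k s) = c • k (d s) := hs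
  have h2 : d' (k (s * r)) = c • k (d (s * r)) := hr
  simp only [map_mul, Derivation.leibniz, h1, smul_eq_mul, map_add, smul_add, mul_smul_comm,
    add_left_inj] at h2
  rw [← mul_smul_comm] at h2
  exact (hu.map k).mul_left_cancel h2

theorem surj_of {σ : Type} (v : σ → A) {S : Set A} (h : Algebra.adjoin ℂ S = ⊤)
    (hS : S ⊆ Set.range v) : Function.Surjective (aeval (R := ℂ) v) := by
  rw [← AlgHom.range_eq_top, ← Algebra.adjoin_range_eq_range_aeval, eq_top_iff, ← h]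
  exact Algebra.adjoin_mono hS

end

variable {T T' : TDat Ix} {p q ν ν' : ℂ} (E : EllD T p q ν) (E' : EllD T' p q ν')

theorem nf (z : MvPolynomial (Fin 2) ℂ) : ∃ P Q : Polynomial ℂ, ∀ (A : Type) [CommRing A]
    [Algebra ℂ A] (x y : A), y ^ 2 = x * (x ^ 2 + p • x + algebraMap ℂ _ q) →
    aeval ![x, y] z = Polynomial.aeval x P + Polynomial.aeval x Q * y := by
  induction z using MvPolynomial.induction_on with
  | C c => exact ⟨Polynomial.C c, 0, fun A _ _ x y _ => by simp⟩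
  | add z z' h h' =>
    obtain ⟨P, Q, h⟩ := h
    obtain ⟨P', Q', h'⟩ := h'
    refine ⟨P + P', Q + Q', fun A _ _ x y e => ?_⟩
    rw [map_add, h A x y e, h' A x y e, map_add, map_add]
    ring
  | mul_X z i h =>
    obtain ⟨P, Q, h⟩ := h
    revert i
    rw [Fin.forall_fin_two]
    refine ⟨⟨P * Polynomial.X, Q * Polynomial.X, fun A _ _ x y e => ?_⟩,
      Q * (Polynomial.X * (Polynomial.X ^ 2 + p • Polynomial.X + Polynomial.C q)), P,
        fun A _ _ x y e => ?_⟩
    · rw [map_mul, h A x y e, aeval_X, map_mul, map_mul, Polynomial.aeval_X]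
      change _ * x = _
      ring
    · rw [map_mul, h A x y e, aeval_X]
      simp only [map_mul, map_add, map_pow, map_smul, Polynomial.aeval_X, Polynomial.aeval_C]
      rw [← e]
      change _ * y = _
      ring

theorem ker_a (z : MvPolynomial (Fin 2) ℂ) (h : aeval ![E.x, E.y] z = 0) :
    aeval ![E'.x, E'.y] z = 0 := by
  obtain ⟨P, Q, hz⟩ := nf (p := p) (q := q) z
  rw [hz _ _ _ E.eqn] at h
  obtain ⟨h1, h2⟩ := E.free P Q h
  rw [hz _ _ _ E'.eqn, h1, h2]
  simp

theorem surj_a : Function.Surjective (aeval (R := ℂ) ![E.x, E.y]) :=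
  surj_of _ E.gen_a (by rintro _ (rfl | rfl); exacts [⟨0, rfl⟩, ⟨1, rfl⟩])

theorem surj_b : Function.Surjective (aeval (R := ℂ) ![E.u, E.t, E.gi]) :=
  surj_of _ E.gen_b (by rintro _ (rfl | rfl | rfl); exacts [⟨0, rfl⟩, ⟨1, rfl⟩, ⟨2, rfl⟩])

theorem unit_x (hq : q ≠ 0) : IsUnit (T.tau (tn a) E.x) :=
  isUnit_of_mul_isUnit_right (E.tau_u ▸ (IsUnit.mk0 q hq).map (algebraMap ℂ (T.R n)))

theorem kap : KAP := by
  intro T T' p q ν ν' E E' hq hν
  obtain ⟨ka, ha⟩ := equiv_of _ _ (surj_a E) (surj_a E') fun z => ⟨ker_a E E' z, ker_a E' E z⟩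
  have hx : ka E.x = E'.x := by simpa using ha (X 0)
  have hy : ka E.y = E'.y := by simpa using ha (X 1)
  obtain ⟨kn, hn⟩ := away_equiv E.away_a (away_comp ka (hy ▸ E'.away_a))
  have hn' : ∀ r, kn (T.tau (tn a) r) = T'.tau (tn a) (ka r) := hn
  have hux := unit_x E' hq
  have hu : kn (T.tau (tn b) E.u) = T'.tau (tn b) E'.u := by
    have h1 := congrArg kn E.tau_u
    rw [map_mul, hn', hx, AlgEquiv.commutes, ← E'.tau_u] at h1
    exact hux.mul_right_cancel h1
  have ht : kn (T.tau (tn b) E.t) = T'.tau (tn b) E'.t := by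
    have h1 := congrArg kn E.tau_t
    rw [map_mul, map_pow, map_neg, map_smul, hn', hn', hx, hy, ← E'.tau_t] at h1
    exact (hux.pow 2).mul_right_cancel h1
  have hg : kn (T.tau (tn b) E.gi) = T'.tau (tn b) E'.gi := by
    have h1 := congrArg (fun r => kn (T.tau (tn b) r)) E.gi_mul
    have h2 := congrArg (T'.tau (tn b)) E'.gi_mul
    simp only [map_mul, map_add, map_pow, map_smul, AlgHom.commutes, AlgEquiv.commutes, map_one,
      hu] at h1 h2
    exact (IsUnit.of_mul_eq_one_right _ h2).mul_right_cancel (h1.trans h2.symm)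
  have hz : ∀ z, kn (T.tau (tn b) (aeval ![E.u, E.t, E.gi] z)) =
      T'.tau (tn b) (aeval ![E'.u, E'.t, E'.gi] z) := fun z => by
    have : ((kn : T.R n →ₐ[ℂ] T'.R n).comp (T.tau (tn b))).comp (aeval ![E.u, E.t, E.gi]) =
        (T'.tau (tn b)).comp (aeval ![E'.u, E'.t, E'.gi]) := by
      refine MvPolynomial.algHom_ext fun i => ?_
      simp only [AlgHom.comp_apply, aeval_X]
      revert i
      rw [Fin.forall_fin_succ, Fin.forall_fin_two]
      exact ⟨hu, ht, hg⟩
    exact AlgHom.congr_fun this z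
  obtain ⟨kb, hb⟩ := equiv_of _ _ (surj_b E) (surj_b E') fun z => by
    rw [← map_eq_zero_iff _ E.inj_b, ← map_eq_zero_iff _ kn.injective, hz,
      map_eq_zero_iff _ E'.inj_b]
  have hb' : ∀ r, kn (T.tau (tn b) r) = T'.tau (tn b) (kb r) := fun r => by
    obtain ⟨z, rfl⟩ := surj_b E r
    rw [hb, hz]
  have da : ∀ r, T'.dd a (ka r) = (ν' / ν) • ka (T.dd a r) := fun r => by
    have : Algebra.adjoin ℂ {E.x, E.y} ≤
        agr (ka : T.R a →ₐ[ℂ] T'.R a) (T.dd a) (T'.dd a) (ν' / ν) := by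
      refine Algebra.adjoin_le ?_
      rintro _ (rfl | rfl)
      · change T'.dd a (ka E.x) = (ν' / ν) • ka (T.dd a E.x)
        rw [hx, E'.dd_x, E.dd_x, map_smul, hy, smul_smul, div_mul_cancel₀ _ hν]
      · change T'.dd a (ka E.y) = (ν' / ν) • ka (T.dd a E.y)
        refine smul_right_injective _ (two_ne_zero (α := ℂ)) ?_
        change (2 : ℂ) • _ = (2 : ℂ) • _
        rw [hy, E'.dd_y, smul_comm (2 : ℂ), ← map_smul ka, E.dd_y]
        simp only [map_smul, map_add, map_pow, hx, AlgEquiv.commutes]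
        rw [smul_smul, div_mul_cancel₀ _ hν]
    exact this (E.gen_a ▸ Algebra.mem_top)
  have dn : ∀ r, T'.dd n (kn r) = (ν' / ν) • kn (T.dd n r) := fun r => by
    have h1 : ∀ r, T.tau (tn a) r ∈
        agr (kn : T.R n →ₐ[ℂ] T'.R n) (T.dd n) (T'.dd n) (ν' / ν) := fun r => by
      change T'.dd n (kn _) = (ν' / ν) • kn (T.dd n _)
      rw [← T.tau_dd, hn', hn', ← T'.tau_dd, da, map_smul]
    obtain ⟨m, x, hx⟩ := E.away_a.surj r
    exact agr_div (E.away_a.unit.pow m) (pow_mem (h1 _) m) (hx ▸ h1 x)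
  have wa : ∀ r, ka (T.w a r) = T'.w a (ka r) := fun r => by
    have : (ka : T.R a →ₐ[ℂ] T'.R a).comp (T.w a) = (T'.w a).comp (ka : T.R a →ₐ[ℂ] T'.R a) := by
      refine AlgHom.ext_of_adjoin_eq_top E.gen_a ?_
      rintro _ (rfl | rfl)
      · change ka (T.w a E.x) = T'.w a (ka E.x)
        rw [E.w_x, hx, E'.w_x]
      · change ka (T.w a E.y) = T'.w a (ka E.y)
        rw [E.w_y, map_neg, hy, E'.w_y]
    exact AlgHom.congr_fun this r
  have wn : ∀ r, kn (T.w n r) = T'.w n (kn r) :=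
    away_ext E.away_a (f := (kn : T.R n →ₐ[ℂ] T'.R n).comp (T.w n))
      (g := (T'.w n).comp (kn : T.R n →ₐ[ℂ] T'.R n)) fun r => by
        change kn (T.w n _) = T'.w n (kn _)
        rw [← T.tau_w, hn', hn', wa, T'.tau_w]
  let k : ∀ i : Ix, T.R i ≃ₐ[ℂ] T'.R i := fun i => match i with
    | a => ka
    | b => kb
    | n => kn
  refine ⟨⟨k, fun {i j} u r => ?_, fun i r => ?_, fun i r => ?_⟩, hx, hy,
    by simpa using hb (X 0), by simpa using hb (X 1)⟩
  · rcases leOfHom u with rfl | rfl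
    · rw [hom_eq u (𝟙 _), T.tau_id, T'.tau_id]
    · rw [hom_eq u (tn i)]
      cases i
      · exact hn' r
      · exact hb' r
      · rw [hom_eq (tn n) (𝟙 _), T.tau_id, T'.tau_id]
  · cases i
    · exact da r
    · refine E'.inj_b ?_
      change T'.tau (tn b) (T'.dd b (kb r)) = T'.tau (tn b) ((ν' / ν) • kb (T.dd b r))
      rw [T'.tau_dd, map_smul, ← hb', ← hb', dn, T.tau_dd]
    · exact dn r
  · cases i
    · exact wa r
    · refine E'.inj_b ?_
      change T'.tau (tn b) (kb (T.w b r)) = T'.tau (tn b) (T'.w b (kb r))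
      rw [T'.tau_w, ← hb', ← hb', T.tau_w, wn]
    · exact wn r

end

end Vale.Agent.P286ET3
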